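import Vale.Agent.P121.Main

/-!
An absolutely continuous probability measure on three-dimensional space with finite Coulomb value
and without an optimal Monge plan.
-/

open MeasureTheory
open scoped ENNReal

namespace Vale.Agent.Results.P121.NoOptimalMongePlan

open Vale.Agent.P121

theorem result :
    ∃ μ : Measure (EuclideanSpace ℝ (Fin 3)),
      IsProbabilityMeasure μ ∧ μ ≪ volume ∧ kantorovichValue μ < ⊤ ∧
        ∀ T₂ T₃ : EuclideanSpace ℝ (Fin 3) → EuclideanSpace ℝ (Fin 3),
          Measurable T₂ → Measurable T₃ → μ.map T₂ = μ → μ.map T₃ = μ →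
            ∫⁻ x, coulombCost (x, T₂ x, T₃ x) ∂μ ≠ kantorovichValue μ := by
  obtain ⟨s⟩ := exists_sheet
  exact ⟨s.marg, s.isProbabilityMeasure_marg, s.marg_absolutelyContinuous, s.value_lt_top,
    fun T₂ T₃ m2 m3 p2 p3 => s.no_monge T₂ T₃ m2 m3 p2 p3⟩

end Vale.Agent.Results.P121.NoOptimalMongePlan
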